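import Mathlib

/-!
# The comparison inequality (CHEB) for two nested relations

Everything is finite and unweighted. `N : V → Finset V` is any family of sets, `cl N S` the union
of the sets `N x`, `x ∈ S`, and `c N S = |cl N S| - |S|`.
-/

namespace Vale.Agent.P038.H338

open Finset

variable {V : Type*} [Fintype V] [DecidableEq V]

/-- The union of the sets `N x`, `x ∈ S`. -/
def cl (N : V → Finset V) (S : Finset V) : Finset V := S.biUnion N

/-- The size of the boundary. -/
def c (N : V → Finset V) (S : Finset V) : ℤ := ((cl N S).card : ℤ) - S.card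

/-- The truncated version, which only counts the elements of `Y` in `cl N S`. -/
def phi (N : V → Finset V) (Y S : Finset V) : ℤ := ((cl N S ∩ Y).card : ℤ) - S.card

/-- The erosion: `x` is in the sets of all closed in-neighbours. -/
def Js (N : V → Finset V) (B : V → Finset V) (z : V) : Finset V :=
  univ.filter fun x => ∀ a, z ∈ N a → x ∈ B a

theorem mem_cl {N : V → Finset V} {S : Finset V} {z : V} : z ∈ cl N S ↔ ∃ x ∈ S, z ∈ N x := by
  simp [cl]

theorem mem_Js {N B : V → Finset V} {z x : V} : x ∈ Js N B z ↔ ∀ a, z ∈ N a → x ∈ B a := by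
  simp [Js]

theorem cl_mono {N : V → Finset V} {S T : Finset V} (h : S ⊆ T) : cl N S ⊆ cl N T :=
  Finset.biUnion_subset_biUnion_of_subset_left _ h

theorem phi_univ (N : V → Finset V) (S : Finset V) : phi N univ S = c N S := by
  simp [phi, c]

theorem phi_sub (N : V → Finset V) (Y S T : Finset V) :
    phi N Y (S ∩ T) + phi N Y (S ∪ T) ≤ phi N Y S + phi N Y T := by
  have h1 : (S ∪ T).card + (S ∩ T).card = S.card + T.card := Finset.card_union_add_card_inter S T
  have h2 : ((cl N S ∩ Y) ∪ (cl N T ∩ Y)).card + ((cl N S ∩ Y) ∩ (cl N T ∩ Y)).card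
      = (cl N S ∩ Y).card + (cl N T ∩ Y).card := Finset.card_union_add_card_inter _ _
  have h3 : (cl N (S ∪ T) ∩ Y).card ≤ ((cl N S ∩ Y) ∪ (cl N T ∩ Y)).card := by
    apply Finset.card_le_card
    intro z hz
    rw [Finset.mem_inter, mem_cl] at hz
    obtain ⟨⟨x, hx, hzx⟩, hzY⟩ := hz
    rw [Finset.mem_union] at hx
    rcases hx with hx | hx
    · exact Finset.mem_union_left _ (Finset.mem_inter.2 ⟨mem_cl.2 ⟨x, hx, hzx⟩, hzY⟩)
    · exact Finset.mem_union_right _ (Finset.mem_inter.2 ⟨mem_cl.2 ⟨x, hx, hzx⟩, hzY⟩)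
  have h4 : (cl N (S ∩ T) ∩ Y).card ≤ ((cl N S ∩ Y) ∩ (cl N T ∩ Y)).card := by
    apply Finset.card_le_card
    intro z hz
    rw [Finset.mem_inter] at hz
    refine Finset.mem_inter.2 ⟨Finset.mem_inter.2 ⟨cl_mono Finset.inter_subset_left hz.1, hz.2⟩,
      Finset.mem_inter.2 ⟨cl_mono Finset.inter_subset_right hz.1, hz.2⟩⟩
  unfold phi
  push_cast
  omega

theorem phi_insert {N : V → Finset V} {Y : Finset V} {y : V} (hy : y ∉ Y) (S : Finset V) :
    phi N (insert y Y) S = phi N Y S + (if y ∈ cl N S then 1 else 0) := by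
  unfold phi
  by_cases h : y ∈ cl N S
  · have : cl N S ∩ insert y Y = insert y (cl N S ∩ Y) := by
      rw [Finset.inter_insert_of_mem h]
    rw [this, Finset.card_insert_of_notMem (fun h' => hy (Finset.mem_inter.1 h').2), if_pos h]
    push_cast
    ring
  · rw [Finset.inter_insert_of_notMem h, if_neg h]
    ring

/-- Smallest minimisers of submodular functions on intervals. -/
theorem exists_small {φ : Finset V → ℤ} (hφ : ∀ S T, φ (S ∩ T) + φ (S ∪ T) ≤ φ S + φ T)
    {B U : Finset V} (h : B ⊆ U) :
    ∃ T, B ⊆ T ∧ T ⊆ U ∧ (∀ T', B ⊆ T' → T' ⊆ U → φ T ≤ φ T') ∧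
      (∀ T', B ⊆ T' → T' ⊆ U → φ T' ≤ φ T → T ⊆ T') := by
  obtain ⟨T0, hT0, hmin0⟩ := Finset.exists_min_image (Finset.Icc B U) φ
    ⟨B, Finset.mem_Icc.2 ⟨le_refl _, h⟩⟩
  obtain ⟨T, hT, hminc⟩ := Finset.exists_min_image ((Finset.Icc B U).filter fun T => φ T ≤ φ T0)
    Finset.card ⟨T0, Finset.mem_filter.2 ⟨hT0, le_refl _⟩⟩
  obtain ⟨hTI, hTd⟩ := Finset.mem_filter.1 hT
  obtain ⟨hBT, hTU⟩ := Finset.mem_Icc.1 hTI
  refine ⟨T, hBT, hTU, fun T' h1 h2 => hTd.trans (hmin0 T' (Finset.mem_Icc.2 ⟨h1, h2⟩)), ?_⟩
  intro T' h1 h2 h3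
  have h4 := hφ T T'
  have h5 := hmin0 (T ∪ T') (Finset.mem_Icc.2
    ⟨Finset.Subset.trans hBT Finset.subset_union_left, Finset.union_subset hTU h2⟩)
  have h6 : T ∩ T' ∈ (Finset.Icc B U).filter fun T => φ T ≤ φ T0 := by
    refine Finset.mem_filter.2 ⟨Finset.mem_Icc.2
      ⟨Finset.subset_inter hBT h1, Finset.Subset.trans Finset.inter_subset_left hTU⟩, ?_⟩
    linarith
  have h7 := hminc _ h6
  have h8 : T ∩ T' = T := Finset.eq_of_subset_of_card_le Finset.inter_subset_left h7
  exact Finset.inter_eq_left.1 h8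

theorem Js_mono {N B U : V → Finset V} (h : ∀ a, B a ⊆ U a) (z : V) : Js N B z ⊆ Js N U z := by
  intro x hx
  rw [mem_Js] at hx ⊢
  exact fun a ha => h a (hx a ha)

/-- **(CHEB)** -/
theorem cheb (N B U : V → Finset V) (hBU : ∀ a, B a ⊆ U a)
    (hR : ∀ a T, B a ⊆ T → T ⊆ U a → c N (B a) ≤ c N T)
    (hC : ∀ (x : V) (S : Finset V), (∀ a ∈ S, x ∈ U a ∧ x ∉ B a) →
      S.card ≤ (univ.filter fun z => (∃ a ∈ S, z ∈ N a) ∧ x ∈ Js N U z).card) :
    ∑ a, (c N (U a) - c N (B a)) ≤ ∑ z, (c N (Js N U z) - c N (Js N B z)) := by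
  classical
  -- smallest minimisers
  have hT := fun (Y : Finset V) (a : V) => exists_small (phi_sub N Y) (hBU a)
  have hT' := fun (Y : Finset V) (z : V) => exists_small (phi_sub N Y) (Js_mono (N := N) hBU z)
  choose T hT1 hT2 hT3 hT4 using hT
  choose T' hT1' hT2' hT3' hT4' using hT'
  -- (i)
  have hi : ∀ Y z a, z ∈ N a → T' Y z ⊆ T Y a := by
    intro Y z a hza
    have e1 : Js N B z ⊆ B a := fun x hx => (mem_Js.1 hx) a hza
    have e2 : Js N U z ⊆ U a := fun x hx => (mem_Js.1 hx) a hza
    have h1 := phi_sub N Y (T' Y z) (T Y a)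
    have h2 := hT3 Y a (T' Y z ∪ T Y a)
      (Finset.Subset.trans (hT1 Y a) Finset.subset_union_right)
      (Finset.union_subset (Finset.Subset.trans (hT2' Y z) e2) (hT2 Y a))
    have h3 := hT4' Y z (T' Y z ∩ T Y a)
      (Finset.subset_inter (hT1' Y z) (Finset.Subset.trans e1 (hT1 Y a)))
      (Finset.Subset.trans Finset.inter_subset_left (hT2' Y z)) (by linarith)
    exact Finset.Subset.trans h3 Finset.inter_subset_right
  -- the claim
  have claim : ∀ Y : Finset V, ∑ a, (phi N Y (U a) - phi N Y (T Y a))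
      ≤ ∑ z, (phi N Y (Js N U z) - phi N Y (T' Y z)) := by
    intro Y
    induction Y using Finset.induction_on with
    | empty =>
      have h1 : ∑ a, (phi N ∅ (U a) - phi N ∅ (T ∅ a)) ≤ ∑ a : V, (0 : ℤ) := by
        apply Finset.sum_le_sum
        intro a _
        have := Finset.card_le_card (hT2 ∅ a)
        simp only [phi, Finset.inter_empty, Finset.card_empty]
        push_cast
        omega
      have h2 : ∑ z : V, (0 : ℤ) ≤ ∑ z, (phi N ∅ (Js N U z) - phi N ∅ (T' ∅ z)) := by
        apply Finset.sum_le_sum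
        intro z _
        have := hT3' ∅ z (Js N U z) (Js_mono hBU z) (le_refl _)
        linarith
      simp only [Finset.sum_const_zero] at h1 h2
      linarith
    | insert y Y hy ih =>
      set L0 : Finset V := univ.filter fun a => y ∈ cl N (U a) ∧ y ∉ cl N (T Y a) with hL0
      set L1 : Finset V := univ.filter fun z => y ∈ cl N (Js N U z) ∧ y ∉ cl N (T' Y z) with hL1
      -- the upper bound for f
      have hf : ∀ a, phi N (insert y Y) (U a) - phi N (insert y Y) (T (insert y Y) a)
          ≤ (phi N Y (U a) - phi N Y (T Y a)) + (if a ∈ L0 then 1 else 0) := by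
        intro a
        set R := T (insert y Y) a with hRdef
        have hR1 : B a ⊆ R := hT1 _ a
        have hR2 : R ⊆ U a := hT2 _ a
        rw [phi_insert hy, phi_insert hy]
        have h1 : phi N Y (T Y a) + (if y ∈ cl N (T Y a) then 1 else 0)
            ≤ phi N Y R + (if y ∈ cl N R then 1 else 0) := by
          rcases le_or_gt (phi N Y R) (phi N Y (T Y a)) with h2 | h2
          · have h3 := cl_mono (N := N) (hT4 Y a R hR1 hR2 h2)
            have h4 := hT3 Y a R hR1 hR2
            by_cases h5 : y ∈ cl N (T Y a)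
            · rw [if_pos h5, if_pos (h3 h5)]
              linarith
            · rw [if_neg h5]
              split_ifs <;> linarith
          · split_ifs <;> linarith
        have h6 : (if y ∈ cl N (U a) then (1 : ℤ) else 0) ≤
            (if y ∈ cl N (T Y a) then 1 else 0) + (if a ∈ L0 then 1 else 0) := by
          by_cases h7 : y ∈ cl N (U a)
          · by_cases h8 : y ∈ cl N (T Y a)
            · rw [if_pos h7, if_pos h8]
              split_ifs <;> norm_num
            · rw [if_pos h7, if_neg h8, if_pos (by simp [hL0, h7, h8])]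
              norm_num
          · rw [if_neg h7]
            split_ifs <;> norm_num
        linarith
      -- the lower bound for g
      have hg : ∀ z, (phi N Y (Js N U z) - phi N Y (T' Y z)) + (if z ∈ L1 then 1 else 0)
          ≤ phi N (insert y Y) (Js N U z) - phi N (insert y Y) (T' (insert y Y) z) := by
        intro z
        have h0 := hT3' (insert y Y) z (T' Y z) (hT1' Y z) (hT2' Y z)
        rw [phi_insert hy, phi_insert hy] at h0
        rw [phi_insert hy, phi_insert hy]
        have h6 : (if y ∈ cl N (T' Y z) then 1 else 0) + (if z ∈ L1 then 1 else 0)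
            ≤ (if y ∈ cl N (Js N U z) then (1 : ℤ) else 0) := by
          by_cases h7 : z ∈ L1
          · have h8 := (Finset.mem_filter.1 h7).2
            rw [if_neg h8.2, if_pos h7, if_pos h8.1]
            norm_num
          · rw [if_neg h7]
            by_cases h8 : y ∈ cl N (T' Y z)
            · rw [if_pos h8, if_pos (cl_mono (hT2' Y z) h8)]
              norm_num
            · rw [if_neg h8]
              split_ifs <;> norm_num
        linarith
      -- counting
      have hcount : L0.card ≤ L1.card := by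
        -- a linear order
        let e : V ≃ Fin (Fintype.card V) := Fintype.equivFin V
        have hx : ∀ a, a ∈ L0 → ∃ x, x ∈ U a ∧ y ∈ N x ∧
            ∀ x', x' ∈ U a → y ∈ N x' → e x ≤ e x' := by
          intro a ha
          obtain ⟨h1, _⟩ := (Finset.mem_filter.1 ha).2
          obtain ⟨x0, hx0, hyx0⟩ := mem_cl.1 h1
          obtain ⟨x, hx, hxm⟩ := Finset.exists_min_image ((U a).filter fun x => y ∈ N x) e
            ⟨x0, Finset.mem_filter.2 ⟨hx0, hyx0⟩⟩
          refine ⟨x, (Finset.mem_filter.1 hx).1, (Finset.mem_filter.1 hx).2, ?_⟩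
          intro x' h1 h2
          exact hxm x' (Finset.mem_filter.2 ⟨h1, h2⟩)
        have hxf : ∃ f : V → V, ∀ a, a ∈ L0 → f a ∈ U a ∧ y ∈ N (f a) ∧
            ∀ x', x' ∈ U a → y ∈ N x' → e (f a) ≤ e x' := by
          refine ⟨fun a => if h : a ∈ L0 then (hx a h).choose else a, ?_⟩
          intro a ha
          simp only [dif_pos ha]
          exact (hx a ha).choose_spec
        obtain ⟨f, hf'⟩ := hxf
        set Z : V → Finset V := fun x => univ.filter fun z =>
          (∃ a ∈ L0.filter (fun a => f a = x), z ∈ N a) ∧ x ∈ Js N U z with hZ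
        have h1 : L0.card = ∑ x, (L0.filter fun a => f a = x).card :=
          Finset.card_eq_sum_card_fiberwise (fun a _ => Finset.mem_coe.2 (Finset.mem_univ _))
        have h2 : ∀ x, (L0.filter fun a => f a = x).card ≤ (Z x).card := by
          intro x
          apply hC
          intro a ha
          obtain ⟨ha1, ha2⟩ := Finset.mem_filter.1 ha
          obtain ⟨g1, g2, _⟩ := hf' a ha1
          rw [ha2] at g1 g2
          refine ⟨g1, fun hB => ?_⟩
          exact (Finset.mem_filter.1 ha1).2.2 (mem_cl.2 ⟨x, hT1 Y a hB, g2⟩)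
        have h3 : ∀ x ∈ (univ : Finset V), ∀ x' ∈ (univ : Finset V), x ≠ x' →
            Disjoint (Z x) (Z x') := by
          have key : ∀ x x', e x < e x' → ∀ z, z ∈ Z x → z ∈ Z x' → False := by
            intro x x' hlt z hz hz'
            obtain ⟨_, hxz⟩ := (Finset.mem_filter.1 hz).2
            obtain ⟨⟨a', ha', hza'⟩, _⟩ := (Finset.mem_filter.1 hz').2
            obtain ⟨ha1, ha2⟩ := Finset.mem_filter.1 ha'
            obtain ⟨_, _, g3⟩ := hf' a' ha1
            have hyx : y ∈ N x := by
              obtain ⟨⟨a, ha, _⟩, _⟩ := (Finset.mem_filter.1 hz).2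
              obtain ⟨b1, b2⟩ := Finset.mem_filter.1 ha
              rw [← b2]
              exact (hf' a b1).2.1
            have := g3 x ((mem_Js.1 hxz) a' hza') hyx
            rw [ha2] at this
            exact absurd this (not_le.2 hlt)
          intro x _ x' _ hne
          rw [Finset.disjoint_left]
          intro z hz hz'
          rcases lt_trichotomy (e x) (e x') with h | h | h
          · exact key x x' h z hz hz'
          · exact hne (e.injective h)
          · exact key x' x h z hz' hz
        have h4 : (univ.biUnion Z).card = ∑ x, (Z x).card := Finset.card_biUnion h3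
        have h5 : univ.biUnion Z ⊆ L1 := by
          intro z hz
          obtain ⟨x, _, hzx⟩ := Finset.mem_biUnion.1 hz
          obtain ⟨⟨a, ha, hza⟩, hxz⟩ := (Finset.mem_filter.1 hzx).2
          obtain ⟨b1, b2⟩ := Finset.mem_filter.1 ha
          have hyx : y ∈ N x := by
            rw [← b2]
            exact (hf' a b1).2.1
          refine Finset.mem_filter.2 ⟨Finset.mem_univ _, mem_cl.2 ⟨x, hxz, hyx⟩, ?_⟩
          intro h6
          exact (Finset.mem_filter.1 b1).2.2 (cl_mono (hi Y z a hza) h6)
        calc L0.card = ∑ x, (L0.filter fun a => f a = x).card := h1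
          _ ≤ ∑ x, (Z x).card := Finset.sum_le_sum fun x _ => h2 x
          _ = (univ.biUnion Z).card := h4.symm
          _ ≤ L1.card := Finset.card_le_card h5
      have s0 : ∑ a : V, (if a ∈ L0 then (1 : ℤ) else 0) = L0.card := by
        simp
      have s1 : ∑ a : V, (if a ∈ L1 then (1 : ℤ) else 0) = L1.card := by
        simp
      calc ∑ a, (phi N (insert y Y) (U a) - phi N (insert y Y) (T (insert y Y) a))
          ≤ ∑ a, ((phi N Y (U a) - phi N Y (T Y a)) + (if a ∈ L0 then 1 else 0)) :=
            Finset.sum_le_sum fun a _ => hf a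
        _ = ∑ a, (phi N Y (U a) - phi N Y (T Y a)) + L0.card := by
            rw [Finset.sum_add_distrib, s0]
        _ ≤ ∑ z, (phi N Y (Js N U z) - phi N Y (T' Y z)) + L1.card := by
            have : (L0.card : ℤ) ≤ L1.card := by exact_mod_cast hcount
            linarith
        _ = ∑ z, ((phi N Y (Js N U z) - phi N Y (T' Y z)) + (if z ∈ L1 then 1 else 0)) := by
            rw [Finset.sum_add_distrib, s1]
        _ ≤ _ := Finset.sum_le_sum fun z _ => hg z
  -- the end
  have hfin := claim univ
  simp only [phi_univ] at hfin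
  have hTB : ∀ a, T univ a = B a := by
    intro a
    apply Finset.Subset.antisymm _ (hT1 univ a)
    apply hT4 univ a (B a) (le_refl _) (hBU a)
    rw [phi_univ, phi_univ]
    exact hR a _ (hT1 univ a) (hT2 univ a)
  have hTB' : ∀ z, T' univ z = Js N B z := by
    intro z
    apply Finset.Subset.antisymm _ (hT1' univ z)
    intro x hx
    rw [mem_Js]
    intro a ha
    rw [← hTB a]
    exact hi univ z a ha hx
  simp only [hTB, hTB'] at hfin
  exact hfin

end Vale.Agent.P038.H338
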